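import Vale.Agent.P181.H564.Explicit
import Vale.Agent.P181.PLX.Main
import Vale.Agent.P181.H467.NT.All

set_option autoImplicit false

/-!
# P181: the polylog and the linear theorem with explicit constants
-/

universe u

namespace Vale.Agent.P181.H564

open Vale.Agent.P181.H280 (plethMult)
open Vale.Agent.P181.PL

/-- **Foulkes' conjecture for `b ≥ (2 * 10 ^ 12) ^ 20000 a (1 + log a) ^ 140000`.** -/
theorem poly_all : ∀ a b : ℕ, (2 * 10 ^ 12 : ℝ) ^ 20000 * a * (1 + Real.log a) ^ 140000 ≤ b →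
    H530.FoulkesInjection.{u} a b ∧
      ∀ (n : ℕ) (lam : Fin n → ℕ), plethMult a b n lam ≤ plethMult b a n lam :=
  fun a b hab => ⟨H530.foulkesInjection_of_mult (poly_explicit PLX.scanS a b hab),
    poly_explicit PLX.scanS a b hab⟩

/-- **Foulkes' inequality for `b ≥ 5 a` and
`(2 * 10 ^ 12) ^ 40000 (1 + log a) ^ 280000 (λ_2 + λ_3 + ⋯) ≤ a ^ 2`.** -/
theorem lin_all : ∀ a b : ℕ, 5 * a ≤ b → ∀ (n : ℕ) (lam : Fin n → ℕ),
    (2 * 10 ^ 12 : ℝ) ^ 40000 * (1 + Real.log a) ^ 280000 *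
      ((∑ i : Fin n, if 1 ≤ (i : ℕ) then lam i else 0 : ℕ) : ℝ) ≤ (a : ℝ) ^ 2 →
      plethMult a b n lam ≤ plethMult b a n lam :=
  lin_explicit fun a b n X lam h =>
    H467.NT.scanG_of (H467.NT.heavy3G_of PL4.lbl H467.NT.asmQ_s)
      (H467.NT.heavy4G_of (PL3.lbi PL2.lEx) H467.NT.asmQ_s)
      (H467.NT.lightG_of H467.NT.asmQ_s SZN3.lbcF SZN3.lbrF) a b n X lam h

end Vale.Agent.P181.H564
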