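import Vale.Agent.P181.PL10.Lin

set_option autoImplicit false

/-!
# P181: the last steps of the polylog and the linear line with explicit constants
-/

namespace Vale.Agent.P181.H564

open Vale.Agent.P181.T4 (ex low)
open Vale.Agent.P181.H280 (plethMult)
open Vale.Agent.P181.PL Vale.Agent.P181.PL10

/-- The polylog theorem with an explicit constant, general exponents. -/
theorem poly_exp (p q m : ℕ) (hqp : q ≤ p) (hS : ∀ (a b n X : ℕ) (lam : Fin n → ℕ),
    Antitone lam → ∑ i, lam i = a * b → (∀ i, 0 < lam i) → n ≤ a → b ≤ a ^ 2 →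
    a * X ^ q ≤ b → X ^ p ≤ a → 10 ^ 12 * (1 + Real.log a) ^ m ≤ X →
    plethMult a b n lam ≤ plethMult b a n lam) :
    ∀ a b : ℕ, (2 * 10 ^ 12 : ℝ) ^ p * a * (1 + Real.log a) ^ (m * p) ≤ b →
      ∀ (n : ℕ) (lam : Fin n → ℕ), plethMult a b n lam ≤ plethMult b a n lam := by
  intro a b hab n lam
  rcases le_or_gt ((a - 1) ^ 2) b with hb | hb
  · exact H463.big_stmt a b n lam hb
  have hb2 : b ≤ a ^ 2 := hb.le.trans (Nat.pow_le_pow_left (Nat.sub_le _ _) 2)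
  obtain ⟨X, hX1, hX2⟩ := exists_X a m
  have hlog : 0 ≤ Real.log a := Real.log_natCast_nonneg a
  have hX0 : 1 ≤ X := by
    by_contra h0
    have h1 : X = 0 := by omega
    subst h1
    have h2 : (0 : ℝ) < 10 ^ 12 * (1 + Real.log a) ^ m := by positivity
    simp only [Nat.cast_zero] at hX1
    linarith
  have h1 := num_q (w := (a : ℝ)) (A := (b : ℝ)) p m
    (Nat.cast_nonneg _) (Nat.cast_nonneg X) hX2 (by
      refine le_trans (le_of_eq ?_) hab
      ring)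
  rw [← Nat.cast_pow, ← Nat.cast_mul] at h1
  have h2 : a * X ^ p ≤ b := Nat.cast_le.1 h1
  refine trimQ lam fun k mu hanti hsum hpos hka hdn => ?_
  refine hS a b k X mu hanti hsum hpos hka hb2 ?_ ?_ hX1
  · exact (Nat.mul_le_mul le_rfl (Nat.pow_le_pow_right hX0 hqp)).trans h2
  · by_contra hc
    have h3 : a ≤ X ^ p := by omega
    have h4 : (a - 1) ^ 2 ≤ a * X ^ p := by
      calc (a - 1) ^ 2 ≤ a ^ 2 := Nat.pow_le_pow_left (Nat.sub_le _ _) 2
        _ = a * a := by ring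
        _ ≤ a * X ^ p := Nat.mul_le_mul le_rfl h3
    omega

/-- The linear theorem with an explicit constant, general exponents. -/
theorem lin_exp (p q m : ℕ) (hqp : q ≤ 2 * p) (H : ∀ (a b n X : ℕ) (lam : Fin n → ℕ),
    Antitone lam → ∑ i, lam i = a * b → (∀ i, 0 < lam i) → n ≤ a → b ≤ a ^ 2 → 5 * a ≤ b →
    X ^ p ≤ a → 10 ^ 12 * (1 + Real.log a) ^ m ≤ X → dn lam 1 * X ^ q ≤ a ^ 2 →
    plethMult a b n lam ≤ plethMult b a n lam) :
    ∀ a b : ℕ, 5 * a ≤ b → ∀ (n : ℕ) (lam : Fin n → ℕ),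
      (2 * 10 ^ 12 : ℝ) ^ (2 * p) * (1 + Real.log a) ^ (m * (2 * p)) * (dn lam 1 : ℝ) ≤
        (a : ℝ) ^ 2 →
      plethMult a b n lam ≤ plethMult b a n lam := by
  intro a b hab n lam hw
  obtain ⟨X, hX1, hX2⟩ := exists_X a m
  have hlog : 0 ≤ Real.log a := Real.log_natCast_nonneg a
  have hX0 : 1 ≤ X := by
    by_contra h0
    have h1 : X = 0 := by omega
    subst h1
    have h2 : (0 : ℝ) < 10 ^ 12 * (1 + Real.log a) ^ m := by positivity
    simp only [Nat.cast_zero] at hX1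
    linarith
  have h1 := num_q (w := (dn lam 1 : ℝ)) (A := (a : ℝ) ^ 2) (2 * p) m
    (Nat.cast_nonneg _) (Nat.cast_nonneg X) hX2 (by
      refine le_trans (le_of_eq ?_) hw
      ring)
  rw [← Nat.cast_pow, ← Nat.cast_pow, ← Nat.cast_mul] at h1
  have h2 : dn lam 1 * X ^ (2 * p) ≤ a ^ 2 := Nat.cast_le.1 h1
  rcases Nat.lt_or_ge a (X ^ p) with ha | ha
  · have h0 : dn lam 1 = 0 := by
      by_contra hne
      have h3 : a ^ 2 < (X ^ p) ^ 2 := Nat.pow_lt_pow_left ha (by norm_num)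
      have h4 : (X ^ p) ^ 2 = X ^ (2 * p) := by
        rw [← pow_mul]
        congr 1
        ring
      have h5 : X ^ (2 * p) ≤ dn lam 1 * X ^ (2 * p) :=
        Nat.le_mul_of_pos_left _ (Nat.pos_of_ne_zero hne)
      omega
    have h1 := dn_anti lam (show 1 ≤ 2 by norm_num)
    exact few a b n lam (by omega)
  refine trimQ lam fun k mu hanti hsum hpos hka hdn => ?_
  rcases le_or_gt ((a - 1) ^ 2) b with hb | hb
  · exact H463.big_stmt a b k mu hb
  have hb2 : b ≤ a ^ 2 := hb.le.trans (Nat.pow_le_pow_left (Nat.sub_le _ _) 2)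
  refine H a b k X mu hanti hsum hpos hka hb2 hab ha hX1 ?_
  rw [hdn 1]
  exact (Nat.mul_le_mul le_rfl (Nat.pow_le_pow_right hX0 hqp)).trans h2

/-- **Polylog theorem, explicit.** -/
theorem poly_explicit (hS : ScanS) : ∀ a b : ℕ,
    (2 * 10 ^ 12 : ℝ) ^ 20000 * a * (1 + Real.log a) ^ 140000 ≤ b →
      ∀ (n : ℕ) (lam : Fin n → ℕ), plethMult a b n lam ≤ plethMult b a n lam := by
  obtain ⟨p, hp⟩ : ∃ p : ℕ, p = 20000 := ⟨_, rfl⟩
  obtain ⟨q, hq⟩ : ∃ q : ℕ, q = 6000 := ⟨_, rfl⟩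
  have h := poly_exp p q 7 (by omega)
    (fun a b n X lam h1 h2 h3 h4 h5 h6 h7 h8 => hS a b n X lam h1 h2 h3 h4 h5
      (by rw [← hq]; exact h6) (by rw [← hp]; exact h7) h8)
  have h7 : 7 * p = 140000 := by omega
  rw [h7, hp] at h
  exact h

/-- **Linear theorem, explicit.** -/
theorem lin_explicit (H : ∀ (a b n X : ℕ) (lam : Fin n → ℕ), HyL a b n X lam →
    plethMult a b n lam ≤ plethMult b a n lam) : ∀ a b : ℕ, 5 * a ≤ b →
      ∀ (n : ℕ) (lam : Fin n → ℕ),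
        (2 * 10 ^ 12 : ℝ) ^ 40000 * (1 + Real.log a) ^ 280000 * (dn lam 1 : ℝ) ≤ (a : ℝ) ^ 2 →
        plethMult a b n lam ≤ plethMult b a n lam := by
  obtain ⟨p, hp⟩ : ∃ p : ℕ, p = 20000 := ⟨_, rfl⟩
  obtain ⟨q, hq⟩ : ∃ q : ℕ, q = 12000 := ⟨_, rfl⟩
  have h := lin_exp p q 7 (by omega)
    (fun a b n X lam h1 h2 h3 h4 h5 h6 h7 h8 h9 => H a b n X lam
      ⟨h1, h2, h3, h4, h5, h6, by rw [← hp]; exact h7, h8, by rw [← hq]; exact h9⟩)
  have h7 : 7 * (2 * p) = 280000 := by omega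
  have h8 : 2 * p = 40000 := by omega
  rw [h7, h8] at h
  exact h

end Vale.Agent.P181.H564
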